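import Crest.Agent.N233.Rr.Hy
import Crest.Agent.N233.Dv.Act

/-!
# Row 233 (helper26): the code subgroup, abstract interface
-/

set_option autoImplicit false
open Set

namespace Crest.Agent.N233.Ma

open Crest.Agent.N255.Ra Dv

variable {S : Type} {Γ : SimpleGraph S} {F : Type} [Group F]

/-- no element inverts a wall -/
def Ni {ρ : F →* (Γ ≃g Γ)} (G : Subgroup (G0 ρ)) : Prop :=
  ∀ g ∈ G, g.right = 1 → ∀ (v : W Γ) (a : S), ∀ u ∈ WT Γ (Γ.neighborSet a),
    g.left ≠ v * (u * gen Γ a) * v⁻¹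

/-- the properties of the code subgroup, without rigidity -/
structure Good {ρ : F →* (Γ ≃g Γ)} (G : Subgroup (G0 ρ)) : Prop where
  normal : G.Normal
  fi : G.FiniteIndex
  inr : ∀ f, SemidirectProduct.inr f ∈ G
  tf : Tf G
  sq : ∀ g : G0 ρ, g * g ∈ G

/-- rigidity: automorphisms that preserve `G` are inner on `G`, the centraliser of `G` is trivial -/
structure Rig {G₀ : Type} [Group G₀] (G : Subgroup G₀) : Prop where
  cen : ∀ u : G₀, (∀ g ∈ G, u * g = g * u) → u = 1
  inn : ∀ b : G₀ ≃* G₀, (∀ g, b g ∈ G ↔ g ∈ G) → ∃ u : G₀, ∀ g ∈ G, b g = u * g * u⁻¹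

/-- finiteness of `Out G` for all finite index subgroups that invert no wall -/
def FinA (ρ : F →* (Γ ≃g Γ)) : Prop :=
  ∀ G : Subgroup (G0 ρ), G.FiniteIndex → Ni G → (MulAut.conj (G := G)).range.FiniteIndex

/-- the output of the code theorem -/
def CodeO (ρ : F →* (Γ ≃g Γ)) : Prop :=
  ∃ G : Subgroup (G0 ρ), Good G ∧ Rig G ∧ (MulAut.conj (G := G)).range.FiniteIndex

end Crest.Agent.N233.Ma
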