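import Crest.Agent.N233.Lo.NevS
import Crest.Agent.N233.Lo.TmP
import Crest.Agent.N233.Lo.PlD
import Crest.Agent.N233.Lo.Bs
import Crest.Agent.N255.Ma.GeoA
import Crest.Agent.N255.En.TmD

/-!
# Row 233 (helper62): the geometric input of the producer for the subdivided model
-/

set_option autoImplicit false

noncomputable section

namespace Crest.Agent.N233.Ma.Gp

open Crest.Agent.N255 Crest.Agent.N255.Ma Crest.Agent.N255.En Crest.Agent.N255.Uc Lo

attribute [local irreducible] Pb.ixc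

/-- the local structure of the subdivided model -/
def locP : Ch.Loc (mps Da.D.mir) := locPs blkS Da.loc

theorem geo {G : Subgroup (mps Da.D.mir).G} [G.FiniteIndex] {T : Type} [TopologicalSpace T]
    [MulAction G T] (g : GM 4 G T) (F : Subgroup F3) (hF : ∀ f ∈ F, Fa.inF (mps Da.D.mir) f ∈ G) :
    HasGeo F T := by
  have : Lo.Inv F3 Da.D.mir.Γ := wl.inv_of_eq tmD.Γ_eq
  have : Nonempty (PG Da.D.mir.Γ) := ⟨(wl.psOf tmD.Γ_eq).T_ne ⟨1, 0, true⟩ |>.choose⟩
  obtain ⟨u, hu⟩ := p2_psD blkS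
  exact geoG1 (tmP tmD) locP (H := locP.cham ⟨1, 0, true⟩) rfl rfl
    (gmPs tmD.Γ_eq (mir_pr Da.D.mir) (Da.D.mir.col_ρ) gmD) u hu g F hF

/-- **the geometric side of row 233** -/
theorem geoP : ∀ (G' : Subgroup (mps Da.D.mir).G) [G'.FiniteIndex] (F : Subgroup F3) [F.FiniteIndex],
    (∀ g : (mps Da.D.mir).G, g.1.left = 1 → g.1.right ∈ F → g ∈ G') → (∀ g ∈ G', g.1.right ∈ F) →
    ∀ (T : Type) [TopologicalSpace T] [MulAction G' T], GM 4 G' T → HasGeo F T :=
  fun _ _ F _ h _ _ _ _ g => geo g F fun _ hf => h _ rfl hf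

end Crest.Agent.N233.Ma.Gp

end
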