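import Crest.Agent.N233.Ma.Master
import Crest.Agent.N233.Ma.GeoP

/-!
# Row 233 (helper62): both statements from the producer of row 255
-/

set_option autoImplicit false

namespace Crest.Agent.N233.Ma

/-- **row 233** from the producer -/
theorem both_prd (hP : N255.Ma.PrdS) : Wu.S60 ∧ Wu.S61 := both_of ⟨Gp.locP⟩ Gp.geoP hP

end Crest.Agent.N233.Ma
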