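import Crest.Agent.N233.Ma.Defs
import Crest.Agent.N233.Wu.Cc
import Crest.Agent.N233.Wu.Rig

/-!
# Row 233 (helper26): both statements from a filling, the code subgroup and the non-existence theorem
-/

set_option autoImplicit false
open Set

noncomputable section

namespace Crest.Agent.N233.Ma

open Crest.Agent.N255.Uc Crest.Agent.N255.Ra Dv Wu

variable {S : Type} {Γ : SimpleGraph S} {F : Type} [Group F] {ρ : F →* (Γ ≃g Γ)}
  {χ : F →* Multiplicative ℤ}

theorem fi_comap {A B : Type*} [Group A] [Group B] (H : Subgroup B) [H.FiniteIndex] (f : A →* B) :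
    (H.comap f).FiniteIndex :=
  ⟨by rw [Subgroup.index_comap]; exact (Subgroup.instFiniteIndex_subgroupOf H _).1⟩

/-- the invariant core of `G ∩ W` -/
def Co (G : Subgroup (G0 (rn ρ χ 2))) : Subgroup (W Γ) where
  carrier := {w | ∀ f, SemidirectProduct.inl (aut (ρ f) w) ∈ G}
  one_mem' := fun f => by simp
  mul_mem' := fun ha hb f => by rw [map_mul, map_mul]; exact G.mul_mem (ha f) (hb f)
  inv_mem' := fun ha f => by rw [map_inv, map_inv]; exact G.inv_mem (ha f)

theorem Co_inv (G : Subgroup (G0 (rn ρ χ 2))) : Inv ρ (Co G) := fun f w hw f' => by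
  have := hw (f' * f)
  rwa [← autHom_apply, map_mul] at this

theorem Co_mem {G : Subgroup (G0 (rn ρ χ 2))} {w : W Γ} (h : w ∈ Co G) :
    SemidirectProduct.inl w ∈ G := by
  have := h 1
  rwa [← autHom_apply, map_one] at this

theorem Co_fi {G : Subgroup (G0 (rn ρ χ 2))} (hG : Good G) {τ : F} (hτ : (χ τ).toAdd = 1) :
    (Co G).FiniteIndex := by
  have := hG.fi
  have h1 := fi_comap G SemidirectProduct.inl
  have h2 := fi_comap G (SemidirectProduct.inl.comp (aut (ρ τ)).toMonoidHom)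
  have k : ∀ (f : Gn χ 2) (w : W Γ), SemidirectProduct.inl w ∈ G →
      SemidirectProduct.inl (aut (ρ f) w) ∈ G := fun f w h => by
    have := hG.normal.conj_mem _ h (SemidirectProduct.inr f)
    rwa [← map_inv, ← SemidirectProduct.inl_aut] at this
  refine Subgroup.finiteIndex_of_le (H := G.comap SemidirectProduct.inl ⊓
    G.comap (SemidirectProduct.inl.comp (aut (ρ τ)).toMonoidHom)) fun w hw f => ?_
  rcases Int.even_or_odd (χ f).toAdd with h | h
  · exact k ⟨f, h.two_dvd⟩ w hw.1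
  · have := k ⟨f * τ⁻¹, by
      rw [mem_Gn, map_mul, map_inv, toAdd_mul, toAdd_inv, hτ]
      exact (h.add_odd (by decide)).two_dvd⟩ (aut (ρ τ) w) hw.2
    have e : aut (ρ f) w = autHom ρ (f * τ⁻¹) (autHom ρ τ w) := by
      rw [← MulAut.mul_apply, ← map_mul, inv_mul_cancel_right]
      rfl
    rw [e]
    exact this

variable (ρ χ) in
/-- the non-existence theorem for all small invariant subgroups -/
def No : Prop := ∃ N0 : Subgroup (W Γ), N0.FiniteIndex ∧ Inv ρ N0 ∧ ∀ N ≤ N0, ∀ [N.FiniteIndex]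
  (h : Inv ρ N) (n : ℤ), Odd n → 1 ≤ n → ∀ (T : Type) [TopologicalSpace T] [MulAction (Gs χ h n) T],
    ¬GM 4 (Gs χ h n) T

theorem both_gen [Countable S] [Countable F] {T : Type} [TopologicalSpace T] [MulAction (Gn χ 2) T]
    (Φ : FillG (rn ρ χ 2) T) (c : Cmb (Gn χ 2) T) {τ : F} (hτ : (χ τ).toAdd = 1)
    (hy : Crest.GroupTheory.IsHyperbolicGroup (G0 (rn ρ χ 2))) (co : CodeO (rn ρ χ 2))
    (no : No ρ χ) : S60 ∧ S61 := by
  obtain ⟨G, hG, hR, fin⟩ := co
  obtain ⟨N0, h0, i0, no⟩ := no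
  have := Co_fi hG hτ
  have := hG.normal
  have h : Inv ρ (N0 ⊓ Co G) := fun f w hw => ⟨i0 f w hw.1, Co_inv G f w hw.2⟩
  have le : Gs χ h 2 ≤ G := fun g hg => by
    rw [← g.inl_left_mul_inr_right]
    exact G.mul_mem (Co_mem (mem_Gs.1 hg).2) (hG.inr _)
  exact ⟨s60_con Φ c hτ h (no _ inf_le_left h) G le hG.tf hy
    (fun g => ⟨1, by simpa [pow_two] using hG.sq g⟩) fin (rig_of G (cn_inj G hR.cen) hR.inn),
    s61_con Φ c hτ h (no _ inf_le_left h) (hG.tf.mono le)⟩

end Crest.Agent.N233.Ma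

end
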