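import Crest.Agent.N233.Ma.Gen
import Crest.Agent.N233.Hi.Hy
import Crest.Agent.N255.Ma.Master
import Crest.Agent.N255.Ma.Lab

/-!
# Row 233 (helper26): the non-existence theorem from the producer of row 255
-/

set_option autoImplicit false
open Set

noncomputable section

namespace Crest.Agent.N233.Ma

open Crest.Agent.N255 Uc Ra Dv Wu N255.Ma

variable {S K Nd Ed : Type} [DecidableEq S] [LinearOrder K] [MulAction F3 Nd] [MulAction F3 Ed]
  (M : Ce.Mir S K F3 Nd Ed)

/-- **the geometric side** for the finite index subgroups of the group of a mirror model -/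
def GeoM : Prop :=
  ∀ (G' : Subgroup M.G) [G'.FiniteIndex] (F : Subgroup F3) [F.FiniteIndex],
    (∀ g : M.G, g.1.left = 1 → g.1.right ∈ F → g ∈ G') → (∀ g ∈ G', g.1.right ∈ F) →
    ∀ (T : Type) [TopologicalSpace T] [MulAction G' T], GM 4 G' T → HasGeo F T

theorem no_of_geo [Finite K] (χ : F3 →* Multiplicative ℤ) (i0 : Fin 3) (h0 : χ (.of i0) = 1)
    (hP : PrdS) (hG : GeoM M) : No M.ρ χ := by
  refine ⟨M.χ.ker, Subgroup.finiteIndex_ker _, fun f w hw => ?_, fun N le _ h n hn h1 T _ _ g => ?_⟩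
  · exact Multiplicative.toAdd.injective (funext fun k => (M.ch_aut f w k).trans
      (congrFun (congrArg Multiplicative.toAdd hw) k))
  have hF : (Gn χ n).FiniteIndex := Hi.fi_of_dvd χ (n := n.toNat) (by omega) _ fun g hg => by
    rwa [Int.toNat_of_nonneg (by omega)] at hg
  let A : Subgroup M.G0 := Sd h ⊓ (Gn χ n).comap SemidirectProduct.rightHom
  have hS : (Sd h).FiniteIndex := by
    have := Gs_fi (χ := χ) h 1
    refine ⟨?_⟩
    rw [← Subgroup.index_comap_of_surjective (Sd h) (f := io M.ρ χ 1) fun e =>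
      (io_rng M.ρ χ 1 e).2 (one_dvd _)]
    exact this.1
  have := fi_comap (Gn χ n) (SemidirectProduct.rightHom : M.G0 →* F3)
  have hA : A.FiniteIndex := inferInstanceAs (Sd h ⊓ _).FiniteIndex
  let e : A.subgroupOf M.Gs ≃* Gs χ h n :=
    { toFun := fun a => ⟨⟨a.1.1.left, ⟨a.1.1.right, a.2.2⟩⟩, a.2.1⟩
      invFun := fun a => ⟨⟨⟨a.1.left, a.1.right⟩, fun k =>
        congrFun (congrArg Multiplicative.toAdd (le a.2)) k⟩, a.2, a.1.right.2⟩
      left_inv := fun _ => rfl
      right_inv := fun _ => rfl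
      map_mul' := fun _ _ => rfl }
  let _ := MulAction.compHom T e.toMonoidHom
  exact not_lab_chi χ hn i0 h0 (fun _ a => a) (hP.lab g (hG (A.subgroupOf M.Gs) (Gn χ n)
    (fun a k k' => ⟨show a.1.left ∈ N from k ▸ N.one_mem, k'⟩) (fun _ a => a.2) T (gm_congr g e)))

end Crest.Agent.N233.Ma

end
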